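import Vale.Agent.P343.Defs
import Vale.Agent.P343.Main

open Vale.Agent.P343

theorem Vale.Agent.Results.P343.A_full.result :
    (∀ h : ℕ, ∃ (σ : Type) (_ : Fintype σ) (Q : Type) (_ : Fintype Q) (A : TwoWay σ Q),
      A.IsOneWay ∧ Fintype.card Q = h + 2 ∧
      ∀ (Q' : Type) [Fintype Q'] (B : TwoWay σ Q'), B.IsDet → B.lang = A.lang →
        2 ^ ((h - 2) / 15) ≤ 2 * (Fintype.card Q' + 1)) ∧
    (¬ ∃ p : Polynomial ℝ, ∀ (σ : Type) [Fintype σ] (Q : Type) [Fintype Q] (A : TwoWay σ Q),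
      ∃ (Q' : Type) (_ : Fintype Q') (B : TwoWay σ Q'),
        B.IsDet ∧ B.lang = A.lang ∧ (Fintype.card Q' : ℝ) ≤ p.eval (Fintype.card Q : ℝ)) ∧
    (¬ ∃ p : Polynomial ℝ, ∀ (σ : Type) [Fintype σ] (Q : Type) [Fintype Q] (A : TwoWay σ Q),
      A.IsOneWay → ∃ (Q' : Type) (_ : Fintype Q') (B : TwoWay σ Q'),
        B.IsDet ∧ B.lang = A.lang ∧ (Fintype.card Q' : ℝ) ≤ p.eval (Fintype.card Q : ℝ)) :=
  ⟨exp_bound, fun ⟨p, hp⟩ => no_poly ⟨p, fun σ _ Q _ A _ => hp σ Q A⟩, no_poly⟩
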